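import Vale.Agent.P066.Theta.H615.Ring
import Vale.Agent.P066.Theta.Uncond

/-!
# Transport of series between the coordinates of two neighbouring seeds

`cone n k = {γ | γ_k ≤ ∑ n_j γ_j}` (`n_k = 0`), with the involution
`flip γ = (γ_j ; ∑ n_j γ_j - γ_k)`.
-/

set_option autoImplicit false

open Finset

namespace Vale.Agent.P066.Theta.H252

open Vale.Agent.P066.Theta

noncomputable section

variable {r : ℕ}

/-- `∑_j n_j γ_j` -/
def lin (n : Fin r → ℕ) (γ : Fin r →₀ ℕ) : ℕ := ∑ j, n j * γ j

theorem lin_add (n : Fin r → ℕ) (a b : Fin r →₀ ℕ) : lin n (a + b) = lin n a + lin n b := by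
  simp only [lin, Finsupp.add_apply, mul_add, sum_add_distrib]

@[simp] theorem lin_zero (n : Fin r → ℕ) : lin n 0 = 0 := by simp [lin]

theorem lin_congr {n : Fin r → ℕ} {k : Fin r} (hn : n k = 0) {a b : Fin r →₀ ℕ}
    (h : ∀ j, j ≠ k → a j = b j) : lin n a = lin n b := by
  unfold lin
  refine sum_congr rfl fun j _ => ?_
  by_cases hj : j = k
  · rw [hj, hn, zero_mul, zero_mul]
  · rw [h j hj]

/-- The common cone of the two seeds. -/
def cone (n : Fin r → ℕ) (k : Fin r) : AddSubmonoid (Fin r →₀ ℕ) where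
  carrier := {γ | γ k ≤ lin n γ}
  zero_mem' := by simp
  add_mem' := by
    intro a b ha hb
    simp only [Set.mem_ofPred_eq] at ha hb ⊢
    rw [lin_add, Finsupp.add_apply]
    exact add_le_add ha hb

theorem mem_cone {n : Fin r → ℕ} {k : Fin r} {γ : Fin r →₀ ℕ} : γ ∈ cone n k ↔ γ k ≤ lin n γ :=
  Iff.rfl

/-- The change of coordinates. -/
def flip (n : Fin r → ℕ) (k : Fin r) (γ : Fin r →₀ ℕ) : Fin r →₀ ℕ := γ.update k (lin n γ - γ k)

@[simp] theorem flip_same (n : Fin r → ℕ) (k : Fin r) (γ : Fin r →₀ ℕ) :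
    flip n k γ k = lin n γ - γ k := by simp [flip]

theorem flip_of_ne (n : Fin r → ℕ) {k j : Fin r} (h : j ≠ k) (γ : Fin r →₀ ℕ) :
    flip n k γ j = γ j := by simp [flip, Function.update_of_ne h]

@[simp] theorem lin_flip {n : Fin r → ℕ} {k : Fin r} (hn : n k = 0) (γ : Fin r →₀ ℕ) :
    lin n (flip n k γ) = lin n γ :=
  lin_congr hn fun _ hj => flip_of_ne n hj γ

theorem flip_mem {n : Fin r → ℕ} {k : Fin r} (hn : n k = 0) (γ : Fin r →₀ ℕ) :
    flip n k γ ∈ cone n k := by
  rw [mem_cone, lin_flip hn, flip_same]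
  exact Nat.sub_le _ _

theorem flip_flip {n : Fin r → ℕ} {k : Fin r} (hn : n k = 0) {γ : Fin r →₀ ℕ}
    (h : γ ∈ cone n k) : flip n k (flip n k γ) = γ := by
  ext j
  by_cases hj : j = k
  · subst hj
    rw [flip_same, lin_flip hn, flip_same]
    rw [mem_cone] at h
    omega
  · rw [flip_of_ne n hj, flip_of_ne n hj]

theorem flip_add {n : Fin r → ℕ} {k : Fin r} {a b : Fin r →₀ ℕ}
    (ha : a ∈ cone n k) (hb : b ∈ cone n k) : flip n k (a + b) = flip n k a + flip n k b := by
  ext j
  rw [Finsupp.add_apply]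
  by_cases hj : j = k
  · subst hj
    rw [flip_same, flip_same, flip_same, lin_add, Finsupp.add_apply]
    rw [mem_cone] at ha hb
    omega
  · rw [flip_of_ne n hj, flip_of_ne n hj, flip_of_ne n hj, Finsupp.add_apply]

@[simp] theorem flip_zero (n : Fin r → ℕ) (k : Fin r) : flip n k 0 = 0 := by
  ext j
  by_cases hj : j = k
  · subst hj
    simp
  · rw [flip_of_ne n hj]

variable {B B' : Matrix (Fin r) (Fin r) ℤ}

/-- `B'` is the matrix of the form of `B` in the new coordinates. -/
def Iso (B B' : Matrix (Fin r) (Fin r) ℤ) (n : Fin r → ℕ) (k : Fin r) : Prop :=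
  ∀ a b, a ∈ cone n k → b ∈ cone n k →
    omega B' (toZ (flip n k a)) (toZ (flip n k b)) = omega B (toZ a) (toZ b)

theorem Iso.symm {n : Fin r → ℕ} {k : Fin r} (hn : n k = 0) (h : Iso B B' n k) :
    Iso B' B n k := by
  intro a b ha hb
  have := h (flip n k a) (flip n k b) (flip_mem hn a) (flip_mem hn b)
  rw [flip_flip hn ha, flip_flip hn hb] at this
  exact this.symm

open Classical in
/-- Transport of a series supported on the common cone. -/
def tr (B B' : Matrix (Fin r) (Fin r) ℤ) (n : Fin r → ℕ) (k : Fin r) (F : QSeries B) :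
    QSeries B' := fun γ => if γ ∈ cone n k then F (flip n k γ) else 0

theorem tr_of_mem {n : Fin r → ℕ} {k : Fin r} (F : QSeries B) {γ : Fin r →₀ ℕ}
    (h : γ ∈ cone n k) : tr B B' n k F γ = F (flip n k γ) := by
  simp only [tr, if_pos h]

theorem tr_of_not_mem {n : Fin r → ℕ} {k : Fin r} (F : QSeries B) {γ : Fin r →₀ ℕ}
    (h : γ ∉ cone n k) : tr B B' n k F γ = 0 := by
  simp only [tr, if_neg h]

theorem tr_mem (n : Fin r → ℕ) (k : Fin r) (F : QSeries B) :
    tr B B' n k F ∈ QSeries.supp (B := B') (cone n k) := by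
  intro γ h
  by_contra hc
  exact h (tr_of_not_mem F hc)

theorem tr_tr {n : Fin r → ℕ} {k : Fin r} (hn : n k = 0) {F : QSeries B}
    (hF : F ∈ QSeries.supp (B := B) (cone n k)) : tr B' B n k (tr B B' n k F) = F := by
  ext γ
  by_cases h : γ ∈ cone n k
  · rw [tr_of_mem _ h, tr_of_mem _ (flip_mem hn γ), flip_flip hn h]
  · rw [tr_of_not_mem _ h]
    by_contra hc
    exact h (hF γ (Ne.symm hc))

@[simp] theorem tr_zero_apply {n : Fin r → ℕ} {k : Fin r} (F : QSeries B) :
    tr B B' n k F 0 = F 0 := by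
  rw [tr_of_mem _ (cone n k).zero_mem, flip_zero]

theorem tr_mul {n : Fin r → ℕ} {k : Fin r} (hn : n k = 0) (hB : Iso B B' n k) {F G : QSeries B}
    (hF : F ∈ QSeries.supp (B := B) (cone n k)) (hG : G ∈ QSeries.supp (B := B) (cone n k)) :
    tr B B' n k (F * G) = tr B B' n k F * tr B B' n k G := by
  ext γ
  by_cases h : γ ∈ cone n k
  · rw [tr_of_mem _ h, QSeries.mul_apply, QSeries.mul_apply]
    symm
    refine sum_bij_ne_zero (fun p _ _ => (flip n k p.1, flip n k p.2)) ?_ ?_ ?_ ?_
    · intro p hp h0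
      have h1 : p.1 ∈ cone n k := by
        by_contra hc
        apply h0
        rw [tr_of_not_mem _ hc]
        ring
      have h2 : p.2 ∈ cone n k := by
        by_contra hc
        apply h0
        rw [tr_of_not_mem G hc]
        ring
      rw [HasAntidiagonal.mem_antidiagonal] at hp ⊢
      show flip n k p.1 + flip n k p.2 = _
      rw [← flip_add h1 h2, hp]
    · intro p hp h0 q hq h0' hpq
      have h1 : p.1 ∈ cone n k := by
        by_contra hc
        apply h0
        rw [tr_of_not_mem _ hc]
        ring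
      have h2 : p.2 ∈ cone n k := by
        by_contra hc
        apply h0
        rw [tr_of_not_mem G hc]
        ring
      have h1' : q.1 ∈ cone n k := by
        by_contra hc
        apply h0'
        rw [tr_of_not_mem _ hc]
        ring
      have h2' : q.2 ∈ cone n k := by
        by_contra hc
        apply h0'
        rw [tr_of_not_mem G hc]
        ring
      rw [Prod.mk.injEq] at hpq
      ext1
      · rw [← flip_flip hn h1, hpq.1, flip_flip hn h1']
      · rw [← flip_flip hn h2, hpq.2, flip_flip hn h2']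
    · intro p hp h0
      rw [HasAntidiagonal.mem_antidiagonal] at hp
      have h1 : p.1 ∈ cone n k := hF _ (by
        intro hc
        apply h0
        rw [hc]
        ring)
      have h2 : p.2 ∈ cone n k := hG _ (by
        intro hc
        apply h0
        rw [hc]
        ring)
      have e1 := flip_flip hn h1
      have e2 := flip_flip hn h2
      refine ⟨(flip n k p.1, flip n k p.2), ?_, ?_, ?_⟩
      · rw [HasAntidiagonal.mem_antidiagonal]
        show flip n k p.1 + flip n k p.2 = _
        rw [← flip_add h1 h2, hp, flip_flip hn h]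
      · show v ^ omega B' (toZ (flip n k p.1)) (toZ (flip n k p.2)) *
          tr B B' n k F (flip n k p.1) * tr B B' n k G (flip n k p.2) ≠ 0
        rw [hB _ _ h1 h2, tr_of_mem _ (flip_mem hn _), tr_of_mem _ (flip_mem hn _), e1, e2]
        exact h0
      · show (flip n k (flip n k p.1), flip n k (flip n k p.2)) = p
        rw [e1, e2]
    · intro p hp h0
      have h1 : p.1 ∈ cone n k := by
        by_contra hc
        apply h0
        rw [tr_of_not_mem _ hc]
        ring
      have h2 : p.2 ∈ cone n k := by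
        by_contra hc
        apply h0
        rw [tr_of_not_mem G hc]
        ring
      show v ^ omega B' (toZ p.1) (toZ p.2) * tr B B' n k F p.1 * tr B B' n k G p.2 =
        v ^ omega B (toZ (flip n k p.1)) (toZ (flip n k p.2)) * F (flip n k p.1) *
          G (flip n k p.2)
      rw [tr_of_mem _ h1, tr_of_mem _ h2, (hB.symm hn) _ _ h1 h2]
  · rw [tr_of_not_mem _ h]
    symm
    by_contra hc
    exact h (Subalgebra.mul_mem _ (tr_mem n k F) (tr_mem n k G) γ hc)

end

end Vale.Agent.P066.Theta.H252
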