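import Vale.Agent.P066.Theta.MutDefs
import Vale.Agent.P066.Theta.Dilog
import Vale.Agent.P066.Theta.H252.Transport

/-!
# Mutation is an isometric change of coordinates
-/

set_option autoImplicit false

open Finset

namespace Vale.Agent.P066.Theta.H252

open Vale.Agent.P066.Theta

noncomputable section

variable {r : ℕ} {B : Matrix (Fin r) (Fin r) ℤ}

/-- `[ω(y_j, y_k)]_+` -/
def nn (B : Matrix (Fin r) (Fin r) ℤ) (k : Fin r) : Fin r → ℕ := fun j => (max (B j k) 0).toNat

theorem diag_zero (hB : B.transpose = -B) (k : Fin r) : B k k = 0 := by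
  have := congrFun (congrFun hB k) k
  simp only [Matrix.transpose_apply, Matrix.neg_apply] at this
  omega

theorem nn_self (hB : B.transpose = -B) (k : Fin r) : nn B k k = 0 := by
  simp [nn, diag_zero hB]

theorem wplus_eq (B : Matrix (Fin r) (Fin r) ℤ) (k : Fin r) (b : Fin r →₀ ℕ) :
    wplus B k b = lin (nn B k) b := by
  unfold wplus lin nn
  exact sum_congr rfl fun j _ => mul_comm _ _

theorem tmap_eq (B : Matrix (Fin r) (Fin r) ℤ) (k : Fin r) (b : Fin r →₀ ℕ) :
    tmap B k b = flip (nn B k) k b := by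
  unfold tmap flip
  rw [wplus_eq]

theorem transp_eq (B : Matrix (Fin r) (Fin r) ℤ) (k : Fin r) (h : QSeries B) :
    transp B k h = tr B (mutB B k) (nn B k) k h := by
  funext b
  unfold transp tr
  rw [wplus_eq, tmap_eq]
  by_cases hb : b k ≤ lin (nn B k) b
  · rw [if_pos hb, if_pos (mem_cone.2 hb)]
  · rw [if_neg hb, if_neg (fun h => hb (mem_cone.1 h))]

/-! ### bilinearity -/

theorem omega_smul_l (B : Matrix (Fin r) (Fin r) ℤ) (c : ℤ) (x y : Fin r → ℤ) :
    omega B (c • x) y = c * omega B x y := by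
  simp only [omega, Pi.smul_apply, smul_eq_mul, mul_sum]
  exact sum_congr rfl fun i _ => sum_congr rfl fun j _ => by ring

theorem omega_smul_r (B : Matrix (Fin r) (Fin r) ℤ) (c : ℤ) (x y : Fin r → ℤ) :
    omega B x (c • y) = c * omega B x y := by
  simp only [omega, Pi.smul_apply, smul_eq_mul, mul_sum]
  exact sum_congr rfl fun i _ => sum_congr rfl fun j _ => by ring

theorem omega_sum_l {ι : Type*} (B : Matrix (Fin r) (Fin r) ℤ) (s : Finset ι)
    (u : ι → Fin r → ℤ) (y : Fin r → ℤ) :
    omega B (∑ i ∈ s, u i) y = ∑ i ∈ s, omega B (u i) y := by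
  classical
  induction s using Finset.induction_on with
  | empty => simp
  | insert a s ha ih => rw [sum_insert ha, sum_insert ha, omega_add_left, ih]

theorem omega_sum_r {ι : Type*} (B : Matrix (Fin r) (Fin r) ℤ) (s : Finset ι)
    (u : ι → Fin r → ℤ) (y : Fin r → ℤ) :
    omega B y (∑ i ∈ s, u i) = ∑ i ∈ s, omega B y (u i) := by
  classical
  induction s using Finset.induction_on with
  | empty => simp
  | insert a s ha ih => rw [sum_insert ha, sum_insert ha, omega_add_right, ih]

/-- The form in the coordinates of a family of vectors. -/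
theorem omega_gram (B : Matrix (Fin r) (Fin r) ℤ) (c : Fin r → Fin r → ℤ) (x y : Fin r → ℤ) :
    omega (fun i j => omega B (c i) (c j)) x y =
      omega B (∑ i, x i • c i) (∑ j, y j • c j) := by
  rw [omega_sum_l]
  unfold omega
  refine sum_congr rfl fun i _ => ?_
  change ∑ j, x i * omega B (c i) (c j) * y j = omega B (x i • c i) (∑ j, y j • c j)
  rw [omega_sum_r]
  refine sum_congr rfl fun j _ => ?_
  rw [omega_smul_l, omega_smul_r]
  ring

theorem sum_mutVec (hB : B.transpose = -B) (k : Fin r) {a : Fin r →₀ ℕ}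
    (ha : a ∈ cone (nn B k) k) :
    ∑ i, toZ (flip (nn B k) k a) i • mutVec B k i = toZ a := by
  have hn := nn_self hB k
  rw [← Finset.add_sum_erase _ _ (mem_univ k)]
  have h1 : ∑ i ∈ univ.erase k, toZ (flip (nn B k) k a) i • mutVec B k i =
      ∑ i ∈ univ.erase k, ((a i : ℤ) • Pi.single i (1 : ℤ) +
        ((nn B k i * a i : ℕ) : ℤ) • (Pi.single k (1 : ℤ) : Fin r → ℤ)) := by
    refine sum_congr rfl fun i hi => ?_
    have hik : i ≠ k := (mem_erase.1 hi).1
    unfold mutVec toZ
    rw [if_neg hik, flip_of_ne _ hik, smul_add, smul_smul]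
    congr 2
    unfold nn
    push_cast
    rw [Int.toNat_of_nonneg (le_max_right _ _), mul_comm]
  rw [h1, sum_add_distrib, ← sum_smul]
  have h2 : ∑ i ∈ univ.erase k, ((nn B k i * a i : ℕ) : ℤ) = (lin (nn B k) a : ℤ) := by
    unfold lin
    rw [← Finset.add_sum_erase univ (fun j => nn B k j * a j) (mem_univ k), hn]
    push_cast
    simp
  rw [h2]
  funext j
  unfold toZ mutVec
  rw [if_pos rfl, flip_same]
  rw [mem_cone] at ha
  simp only [Pi.add_apply, Pi.smul_apply, Pi.neg_apply, smul_eq_mul, Finset.sum_apply]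
  rw [Nat.cast_sub ha]
  by_cases hj : j = k
  · subst hj
    rw [sum_eq_zero]
    · rw [Pi.single_eq_same]
      ring
    · intro i hi
      rw [Pi.single_eq_of_ne (mem_erase.1 hi).1.symm, mul_zero]
  · rw [Pi.single_eq_of_ne hj, sum_eq_single j]
    · rw [Pi.single_eq_same]
      ring
    · intro i _ hi
      rw [Pi.single_eq_of_ne hi.symm, mul_zero]
    · intro h
      exact absurd (mem_erase.2 ⟨hj, mem_univ j⟩) h

theorem iso_mutB (hB : B.transpose = -B) (k : Fin r) : Iso B (mutB B k) (nn B k) k := by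
  intro a b ha hb
  unfold mutB
  rw [omega_gram, sum_mutVec hB k ha, sum_mutVec hB k hb]

end

end Vale.Agent.P066.Theta.H252
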