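import Vale.Agent.P066.Theta.H252.SeedMut

/-!
# `g = A · g'` for the cluster element of the extended seed (U5c)
-/

set_option autoImplicit false

open Finset

namespace Vale.Agent.P066.Theta.H252

open Vale.Agent.P066.Theta

noncomputable section

/-! ### transport of dilogarithms -/

section

variable {r : ℕ} {B B' : Matrix (Fin r) (Fin r) ℤ}

theorem flip_smul {n : Fin r → ℕ} {k : Fin r} {a : Fin r →₀ ℕ} (ha : a ∈ cone n k) (m : ℕ) :
    flip n k (m • a) = m • flip n k a := by
  induction m with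
  | zero => simp
  | succ m ih => rw [succ_nsmul, succ_nsmul, flip_add ((cone n k).nsmul_mem ha m) ha, ih]

theorem dilog_mem {S : AddSubmonoid (Fin r →₀ ℕ)} {c : Fin r →₀ ℕ} (hc : c ∈ S) :
    dilog B c ∈ QSeries.supp (B := B) S := by
  intro γ h
  by_contra hγ
  apply h
  rw [Dil.dilog_eq_line]
  refine Dil.line_apply_of_not _ fun m hm => hγ ?_
  rw [← hm]
  exact S.nsmul_mem hc m

theorem dilog_zero_apply {c : Fin r →₀ ℕ} (hc : c ≠ 0) : dilog B c 0 = 1 := by
  have h := Dil.line_smul_apply (B := B) hc psi 0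
  rw [zero_smul] at h
  rw [Dil.dilog_eq_line, h, Dil.psi_zero]

theorem tr_dilog {n : Fin r → ℕ} {k : Fin r} (hn : n k = 0) {c : Fin r →₀ ℕ}
    (hc : c ∈ cone n k) (hc0 : c ≠ 0) : tr B B' n k (dilog B c) = dilog B' (flip n k c) := by
  have hf0 : flip n k c ≠ 0 := by
    intro h
    apply hc0
    rw [← flip_flip hn hc, h, flip_zero]
  ext γ
  by_cases hγ : γ ∈ cone n k
  · rw [tr_of_mem _ hγ, Dil.dilog_eq_line, Dil.dilog_eq_line]
    by_cases h : ∃ m : ℕ, m • flip n k c = γ
    · obtain ⟨m, rfl⟩ := h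
      rw [Dil.line_smul_apply hf0, flip_smul (flip_mem hn c), flip_flip hn hc,
        Dil.line_smul_apply hc0]
    · push Not at h
      rw [Dil.line_apply_of_not _ h, Dil.line_apply_of_not]
      intro m hm
      apply h m
      rw [← flip_smul hc, hm, flip_flip hn hγ]
  · rw [tr_of_not_mem _ hγ]
    by_contra hne
    exact hγ (dilog_mem (B := B') (flip_mem hn c) γ (Ne.symm hne))

theorem tr_one {n : Fin r → ℕ} {k : Fin r} (hn : n k = 0) :
    tr B B' n k (1 : QSeries B) = 1 := by
  ext γ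
  by_cases hγ : γ ∈ cone n k
  · rw [tr_of_mem _ hγ, QSeries.one_apply, QSeries.one_apply]
    by_cases h : γ = 0
    · rw [h, flip_zero]
    · rw [if_neg h, if_neg]
      intro h'
      apply h
      rw [← flip_flip hn hγ, h', flip_zero]
  · rw [tr_of_not_mem _ hγ, QSeries.one_apply, if_neg]
    intro h
    apply hγ
    rw [h]
    exact (cone n k).zero_mem

/-- Transport of an ordered product of dilogarithms. -/
theorem tr_prod_dilog {n : Fin r → ℕ} {k : Fin r} (hn : n k = 0) (hB : Iso B B' n k)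
    (c c' : ℕ → Fin r →₀ ℕ) (l : List ℕ)
    (hl : ∀ b ∈ l, c b ∈ cone n k ∧ c b ≠ 0 ∧ flip n k (c b) = c' b) :
    (l.map fun b => dilog B (c b)).prod ∈ QSeries.supp (B := B) (cone n k) ∧
      tr B B' n k (l.map fun b => dilog B (c b)).prod =
        (l.map fun b => dilog B' (c' b)).prod := by
  induction l with
  | nil =>
    simp only [List.map_nil, List.prod_nil]
    exact ⟨one_mem _, tr_one hn⟩
  | cons a l ih =>
    obtain ⟨h1, h2⟩ := ih fun b hb => hl b (List.mem_cons_of_mem a hb)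
    obtain ⟨h3, h4, h5⟩ := hl a List.mem_cons_self
    simp only [List.map_cons, List.prod_cons]
    have h6 := dilog_mem (B := B) h3
    exact ⟨Subalgebra.mul_mem _ h6 h1, by rw [tr_mul hn hB h6 h1, h2, tr_dilog hn h3 h4, h5]⟩

theorem prod_dilog_zero (c : ℕ → Fin r →₀ ℕ) (l : List ℕ) (hl : ∀ b ∈ l, c b ≠ 0) :
    (l.map fun b => dilog B (c b)).prod 0 = 1 := by
  induction l with
  | nil => simp
  | cons a l ih =>
    simp only [List.map_cons, List.prod_cons]
    rw [QSeries.mul_zero_apply, ih fun b hb => hl b (List.mem_cons_of_mem a hb),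
      dilog_zero_apply (hl a List.mem_cons_self), one_mul]

end

/-! ### the interval vectors -/

/-- `c_a + c_{a+1} + ⋯ + c_b` in the coordinates of the seed number `a`. -/
def iv (N a b : ℕ) : Fin N →₀ ℕ :=
  Finsupp.equivFunOnFinite.symm fun i => if a ≤ (i : ℕ) ∧ (i : ℕ) ≤ b then 1 else 0

@[simp] theorem iv_apply (N a b : ℕ) (i : Fin N) :
    iv N a b i = if a ≤ (i : ℕ) ∧ (i : ℕ) ≤ b then 1 else 0 := rfl

theorem iv_ne {N a b : ℕ} (ha : a < N) (hab : a ≤ b) : iv N a b ≠ 0 := by
  intro h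
  have := DFunLike.congr_fun h (⟨a, ha⟩ : Fin N)
  simp [hab] at this

theorem iv_self {N a : ℕ} (ha : a < N) : iv N a a = Finsupp.single ⟨a, ha⟩ 1 := by
  ext i
  rw [iv_apply, Finsupp.single_apply]
  by_cases h : (⟨a, ha⟩ : Fin N) = i
  · subst h
    simp
  · rw [if_neg h, if_neg]
    rintro ⟨h1, h2⟩
    exact h (Fin.ext (le_antisymm h1 h2))

theorem nn_seedB {N k a : ℕ} (hk : 1 ≤ k) (ha : a < N) (i : Fin N) :
    nn (seedB N k a) ⟨a, ha⟩ i = if (i : ℕ) + 1 = a ∨ (i : ℕ) = a + 1 then 1 else 0 := by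
  have e0 : ∀ x, wE k x 0 = 0 := by intro x; simp [wE]
  have e0' : ∀ x, wE k 0 x = 0 := by intro x; simp [wE]
  have ea : cp a a = a + 1 ∧ cq a a = 0 := by
    constructor
    · simp [cp]
    · simp [cq]
  unfold nn seedB
  simp only [ea.1, ea.2]
  rcases lt_trichotomy ((i : ℕ) + 1) a with h | h | h
  · have h1 : cp a i = i + 2 := by simp [cp, h]
    have h2 : cq a i = i + 1 := by simp [cq, h]
    rw [h1, h2, if_neg (by omega)]
    have h5 : wD k (i + 2) (i + 1) (a + 1) 0 ≤ 0 := by
      simp only [wD, e0, sub_zero, add_zero]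
      unfold wE
      split_ifs <;> omega
    rw [max_eq_right h5]
    rfl
  · have h1 : cp a i = 0 := by simp [cp, h]
    have h2 : cq a i = a := by simp [cq, h]
    rw [h1, h2, if_pos (Or.inl h)]
    have h5 : wD k 0 a (a + 1) 0 = 1 := by
      have h6 : wE k a (a + 1) = -1 := by
        unfold wE
        rw [if_neg (by omega), if_neg (by omega), if_pos (by omega)]
      simp only [wD, e0, e0', h6]
      norm_num
    rw [h5]
    rfl
  · by_cases h' : (i : ℕ) = a + 1
    · have h1 : cp a i = a + 2 := by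
        simp [cp, h', show ¬ a + 1 + 1 < a by omega, show ¬ a + 1 + 1 = a by omega]
      have h2 : cq a i = a + 1 := by
        simp [cq, h', show ¬ a + 1 + 1 < a by omega, show ¬ a + 1 + 1 = a by omega]
      rw [h1, h2, if_pos (Or.inr h')]
      have h5 : wD k (a + 2) (a + 1) (a + 1) 0 = 1 := by
        have h6 : wE k (a + 2) (a + 1) = 1 := by
          unfold wE
          rw [if_neg (by omega), if_pos (by omega)]
        have h7 : wE k (a + 1) (a + 1) = 0 := by
          unfold wE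
          rw [if_neg (by omega), if_neg (by omega), if_neg (by omega)]
        simp only [wD, e0, h6, h7]
        norm_num
      rw [h5]
      rfl
    · rw [if_neg (by omega)]
      by_cases h'' : (i : ℕ) = a
      · have h1 : cp a i = a + 1 := by rw [h'']; exact ea.1
        have h2 : cq a i = 0 := by rw [h'']; exact ea.2
        rw [h1, h2]
        have h5 : wD k (a + 1) 0 (a + 1) 0 ≤ 0 := by
          have h6 : wE k (a + 1) (a + 1) = 0 := by
            unfold wE
            rw [if_neg (by omega), if_neg (by omega), if_neg (by omega)]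
          simp only [wD, e0, e0', h6]
          norm_num
        rw [max_eq_right h5]
        rfl
      · have h1 : cp a i = i + 1 := by
          simp [cp, show ¬ (i : ℕ) + 1 < a by omega, show ¬ (i : ℕ) + 1 = a by omega]
        have h2 : cq a i = i := by
          simp [cq, show ¬ (i : ℕ) + 1 < a by omega, show ¬ (i : ℕ) + 1 = a by omega, h'']
        rw [h1, h2]
        have h5 : wD k (i + 1) i (a + 1) 0 ≤ 0 := by
          have h6 : ∀ x, a + 1 < x → wE k x (a + 1) = if x ≤ a + 1 + k then 1 else 0 := by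
            intro x hx
            unfold wE
            rw [if_neg (by omega)]
            by_cases h8 : x ≤ a + 1 + k
            · rw [if_pos ⟨hx, h8⟩, if_pos h8]
            · rw [if_neg (by omega), if_neg (by omega), if_neg h8]
          simp only [wD, e0, sub_zero, add_zero]
          rw [h6 _ (by omega), h6 _ (by omega)]
          split_ifs <;> omega
        rw [max_eq_right h5]
        rfl

theorem lin_iv {N k a b : ℕ} (hk : 1 ≤ k) (ha : a < N) (hab : a + 1 ≤ b) (hb : b < N) :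
    lin (nn (seedB N k a) ⟨a, ha⟩) (iv N (a + 1) b) = 1 := by
  unfold lin
  rw [sum_eq_single (⟨a + 1, by omega⟩ : Fin N)]
  · rw [nn_seedB hk ha, iv_apply]
    simp [hab]
  · intro i _ hi
    rw [nn_seedB hk ha, iv_apply]
    have hi' : (i : ℕ) ≠ a + 1 := fun h => hi (Fin.ext h)
    by_cases h : (i : ℕ) + 1 = a
    · rw [if_neg (show ¬(a + 1 ≤ (i : ℕ) ∧ (i : ℕ) ≤ b) by omega), mul_zero]
    · rw [if_neg (show ¬((i : ℕ) + 1 = a ∨ (i : ℕ) = a + 1) by omega), zero_mul]
  · intro h
    exact absurd (mem_univ _) h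

theorem flip_iv {N k a b : ℕ} (hk : 1 ≤ k) (ha : a < N) (hab : a + 1 ≤ b) (hb : b < N) :
    iv N (a + 1) b ∈ cone (nn (seedB N k a) ⟨a, ha⟩) ⟨a, ha⟩ ∧
      flip (nn (seedB N k a) ⟨a, ha⟩) ⟨a, ha⟩ (iv N (a + 1) b) = iv N a b := by
  have h0 : iv N (a + 1) b (⟨a, ha⟩ : Fin N) = 0 := by
    rw [iv_apply, if_neg]
    simp
  constructor
  · rw [mem_cone, h0]
    exact Nat.zero_le _
  · ext i
    by_cases hi : i = ⟨a, ha⟩
    · subst hi
      rw [flip_same, lin_iv hk ha hab hb, h0, iv_apply, if_pos]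
      simp only
      omega
    · have hi' : (i : ℕ) ≠ a := fun h => hi (Fin.ext h)
      rw [flip_of_ne _ hi, iv_apply, iv_apply]
      congr 1
      apply propext
      constructor <;> intro h <;> omega

/-- The ordered product of the dilogarithms of `ε_{a+1}, …, ε_N` in the coordinates of the seed
number `a`. -/
def PP {N : ℕ} (B : Matrix (Fin N) (Fin N) ℤ) (a : ℕ) : QSeries B :=
  ((List.range' a (N - a)).map fun b => dilog B (iv N a b)).prod

/-- The linear form `y_0^*` in the coordinates of the seed number `a`. -/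
def sform (N a : ℕ) : Fin N → ℤ := fun i =>
  (if (i : ℕ) = a then 1 else 0) - (if (i : ℕ) + 1 = a then 1 else 0)

theorem sform_flip {N k a : ℕ} (hk : 1 ≤ k) (ha : a < N) {γ : Fin N →₀ ℕ}
    (hγ : γ ∈ cone (nn (seedB N k a) ⟨a, ha⟩) ⟨a, ha⟩) :
    wt (sform N (a + 1)) (flip (nn (seedB N k a) ⟨a, ha⟩) ⟨a, ha⟩ γ) = wt (sform N a) γ := by
  have h1 : ∀ (x : ℕ) (hx : x < N) (δ : Fin N →₀ ℕ),
      ∑ i : Fin N, (δ i : ℤ) * (if (i : ℕ) = x then 1 else 0) = δ ⟨x, hx⟩ := by
    intro x hx δ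
    rw [sum_eq_single (⟨x, hx⟩ : Fin N)]
    · simp
    · intro i _ hi
      rw [if_neg (fun h => hi (Fin.ext h)), mul_zero]
    · intro h
      exact absurd (mem_univ _) h
  have h2 : ∀ (x : ℕ) (_ : N ≤ x) (δ : Fin N →₀ ℕ),
      ∑ i : Fin N, (δ i : ℤ) * (if (i : ℕ) = x then 1 else 0) = 0 := by
    intro x hx δ
    refine sum_eq_zero fun i _ => ?_
    rw [if_neg (by omega), mul_zero]
  have h3 : ∀ (x : ℕ) (hx : x < N) (hx1 : 1 ≤ x) (δ : Fin N →₀ ℕ),
      ∑ i : Fin N, (δ i : ℤ) * (if (i : ℕ) + 1 = x then 1 else 0) = δ ⟨x - 1, by omega⟩ := by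
    intro x hx hx1 δ
    rw [← h1 (x - 1) (by omega)]
    refine sum_congr rfl fun i _ => ?_
    congr 2
    apply propext
    constructor <;> intro h <;> omega
  have hlin : (lin (nn (seedB N k a) ⟨a, ha⟩) γ : ℤ) =
      ∑ i : Fin N, (γ i : ℤ) * (if (i : ℕ) + 1 = a then 1 else 0) +
        ∑ i : Fin N, (γ i : ℤ) * (if (i : ℕ) = a + 1 then 1 else 0) := by
    unfold lin
    rw [← sum_add_distrib]
    push_cast
    refine sum_congr rfl fun i _ => ?_
    rw [nn_seedB hk ha, ← mul_add, mul_comm]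
    congr 1
    split_ifs <;> first | rfl | omega
  rw [mem_cone] at hγ
  unfold wt sform
  simp only [mul_sub, sum_sub_distrib]
  have h4 : ∑ i : Fin N, (flip (nn (seedB N k a) ⟨a, ha⟩) ⟨a, ha⟩ γ i : ℤ) *
      (if (i : ℕ) + 1 = a + 1 then 1 else 0) = (lin (nn (seedB N k a) ⟨a, ha⟩) γ : ℤ) -
        γ ⟨a, ha⟩ := by
    have : ∀ i : Fin N, ((if (i : ℕ) + 1 = a + 1 then 1 else 0 : ℤ)) =
        if (i : ℕ) = a then 1 else 0 := by
      intro i
      congr 1
      apply propext
      constructor <;> intro h <;> omega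
    simp only [this]
    rw [h1 a ha, flip_same, Nat.cast_sub hγ]
  have h5 : ∑ i : Fin N, (flip (nn (seedB N k a) ⟨a, ha⟩) ⟨a, ha⟩ γ i : ℤ) *
      (if (i : ℕ) = a + 1 then 1 else 0) =
      ∑ i : Fin N, (γ i : ℤ) * (if (i : ℕ) = a + 1 then 1 else 0) := by
    refine sum_congr rfl fun i _ => ?_
    by_cases h : (i : ℕ) = a + 1
    · rw [flip_of_ne]
      intro hi
      rw [hi] at h
      simp at h
    · rw [if_neg h, mul_zero, mul_zero]
  rw [h4, h5, hlin, h1 a ha]
  ring

end

end Vale.Agent.P066.Theta.H252
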