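import Vale.Agent.P066.Theta.H615.Ring
import Vale.Agent.P066.Theta.Uncond

/-!
# The seeds of the first `N` mutations of the extended seed of `P_{N,k}`

After `a` mutations (at the vertices `0, …, a-1`) the `c`-vectors are
`y_1, …, y_{a-1}, -ε_a, ε_{a+1}, y_{a+1}, …, y_{N-1}`.
-/

set_option autoImplicit false

open Finset

namespace Vale.Agent.P066.Theta

noncomputable section

/-- The `c`-vector number `i` after `a` mutations is `ε_{cp a i} - ε_{cq a i}` (`ε_0 = 0`). -/
def cp (a i : ℕ) : ℕ := if i + 1 < a then i + 2 else if i + 1 = a then 0 else i + 1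

/-- See `cp`. -/
def cq (a i : ℕ) : ℕ := if i + 1 < a then i + 1 else if i + 1 = a then a else if i = a then 0 else i

/-- `ω(ε_p - ε_q, ε_{p'} - ε_{q'})`. -/
def wD (k p q p' q' : ℕ) : ℤ := wE k p p' - wE k q p' - wE k p q' + wE k q q'

/-- The exchange matrix after `a` mutations. -/
def seedB (N k a : ℕ) : Matrix (Fin N) (Fin N) ℤ := fun i j =>
  wD k (cp a i) (cq a i) (cp a j) (cq a j)

theorem wE_swap (k a b : ℕ) : wE k a b = - wE k b a := by
  unfold wE
  split_ifs <;> first | rfl | omega

theorem wD_swap (k p q p' q' : ℕ) : wD k p q p' q' = - wD k p' q' p q := by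
  unfold wD
  rw [wE_swap k p p', wE_swap k q p', wE_swap k p q', wE_swap k q q']
  ring

theorem seedB_skew (N k a : ℕ) : (seedB N k a).transpose = - seedB N k a := by
  ext i j
  simp only [Matrix.transpose_apply, Matrix.neg_apply, seedB]
  exact wD_swap _ _ _ _ _

theorem seedB_zero (N k : ℕ) : seedB N k 0 = extB N k := by
  ext i j
  have h1 : ∀ i : ℕ, cp 0 i = i + 1 := by intro i; simp [cp]
  have h2 : ∀ i : ℕ, cq 0 i = i := by
    intro i
    by_cases h : i = 0 <;> simp [cq, h]
  simp only [seedB, extB, wD, h1, h2]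

end

end Vale.Agent.P066.Theta
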