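import Vale.Agent.P066.Theta.H252.Mut
import Vale.Agent.P066.Theta.H252.Seeds

/-!
# The seeds `seedB N k a` are mutations of each other (for U5c)
-/

set_option autoImplicit false

open Finset

namespace Vale.Agent.P066.Theta.H252

open Vale.Agent.P066.Theta

noncomputable section

/-! ### the seeds are mutations of each other -/

theorem row_of_ne {k a i : ℕ} (hk : 1 ≤ k) (hi : i ≠ a) (p q : ℕ) :
    wD k (cp (a + 1) i) (cq (a + 1) i) p q =
      wD k (cp a i) (cq a i) p q +
        max (wD k (cp a i) (cq a i) (cp a a) (cq a a)) 0 * wD k (cp a a) (cq a a) p q := by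
  have ea : cp a a = a + 1 ∧ cq a a = 0 := by
    constructor
    · simp [cp]
    · simp [cq]
  rw [ea.1, ea.2]
  have e0 : ∀ x, wE k x 0 = 0 := by intro x; simp [wE]
  have e0' : ∀ x, wE k 0 x = 0 := by intro x; simp [wE]
  rcases lt_trichotomy (i + 1) a with h | h | h
  · have h1 : cp a i = i + 2 := by simp [cp, h]
    have h2 : cq a i = i + 1 := by simp [cq, h]
    have h3 : cp (a + 1) i = i + 2 := by simp [cp, show i + 1 < a + 1 by omega]
    have h4 : cq (a + 1) i = i + 1 := by simp [cq, show i + 1 < a + 1 by omega]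
    rw [h1, h2, h3, h4]
    have h5 : wD k (i + 2) (i + 1) (a + 1) 0 ≤ 0 := by
      simp only [wD, e0, sub_zero, add_zero]
      unfold wE
      split_ifs <;> omega
    rw [max_eq_right h5, zero_mul, add_zero]
  · subst h
    have h1 : cp (i + 1) i = 0 := by simp [cp]
    have h2 : cq (i + 1) i = i + 1 := by simp [cq]
    have h3 : cp (i + 1 + 1) i = i + 2 := by simp [cp]
    have h4 : cq (i + 1 + 1) i = i + 1 := by simp [cq]
    rw [h1, h2, h3, h4]
    have h5 : wD k 0 (i + 1) (i + 1 + 1) 0 = 1 := by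
      simp only [wD, e0, e0', sub_zero, add_zero]
      unfold wE
      split_ifs <;> first | omega | simp_all
    rw [h5, max_eq_left zero_le_one, one_mul]
    simp only [wD, e0']
    ring
  · by_cases h' : i = a + 1
    · subst h'
      have h1 : cp a (a + 1) = a + 2 := by
        simp [cp, show ¬ a + 1 + 1 < a by omega, show ¬ a + 1 + 1 = a by omega]
      have h2 : cq a (a + 1) = a + 1 := by
        simp [cq, show ¬ a + 1 + 1 < a by omega, show ¬ a + 1 + 1 = a by omega]
      have h3 : cp (a + 1) (a + 1) = a + 2 := by simp [cp]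
      have h4 : cq (a + 1) (a + 1) = 0 := by simp [cq]
      rw [h1, h2, h3, h4]
      have h5 : wD k (a + 2) (a + 1) (a + 1) 0 = 1 := by
        simp only [wD, e0, sub_zero, add_zero]
        unfold wE
        split_ifs <;> first | omega | simp_all
      rw [h5, max_eq_left zero_le_one, one_mul]
      simp only [wD, e0']
      ring
    · have h1 : cp a i = i + 1 := by
        simp [cp, show ¬ i + 1 < a by omega, show ¬ i + 1 = a by omega]
      have h2 : cq a i = i := by
        simp [cq, show ¬ i + 1 < a by omega, show ¬ i + 1 = a by omega, hi]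
      have h3 : cp (a + 1) i = i + 1 := by
        simp [cp, show ¬ i < a by omega, hi]
      have h4 : cq (a + 1) i = i := by
        simp [cq, show ¬ i < a by omega, hi, h']
      rw [h1, h2, h3, h4]
      have h5 : wD k (i + 1) i (a + 1) 0 ≤ 0 := by
        simp only [wD, e0, sub_zero, add_zero]
        unfold wE
        split_ifs <;> first | omega | simp_all
      rw [max_eq_right h5, zero_mul, add_zero]

theorem row_self (k a p q : ℕ) :
    wD k (cp (a + 1) a) (cq (a + 1) a) p q = - wD k (cp a a) (cq a a) p q := by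
  have h1 : cp (a + 1) a = 0 := by simp [cp]
  have h2 : cq (a + 1) a = a + 1 := by simp [cq]
  have h3 : cp a a = a + 1 := by simp [cp]
  have h4 : cq a a = 0 := by simp [cq]
  rw [h1, h2, h3, h4]
  unfold wD
  ring

theorem omega_single {r : ℕ} (B : Matrix (Fin r) (Fin r) ℤ) (i j : Fin r) :
    omega B (Pi.single i 1) (Pi.single j 1) = B i j := by
  unfold omega
  rw [sum_eq_single i]
  · rw [sum_eq_single j]
    · simp
    · intro b _ hb
      rw [Pi.single_eq_of_ne hb, mul_zero]
    · intro h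
      exact absurd (mem_univ j) h
  · intro b _ hb
    refine sum_eq_zero fun c _ => ?_
    rw [Pi.single_eq_of_ne hb]
    ring
  · intro h
    exact absurd (mem_univ i) h

theorem mutB_seedB (N k a : ℕ) (hk : 1 ≤ k) (ha : a < N) :
    mutB (seedB N k a) ⟨a, ha⟩ = seedB N k (a + 1) := by
  have hdiag := diag_zero (seedB_skew N k a) ⟨a, ha⟩
  -- the value of the new form on the old vectors
  have key : ∀ (i : Fin N) (y : Fin N → ℤ),
      omega (seedB N k a) (mutVec (seedB N k a) ⟨a, ha⟩ i) y =
        if i = ⟨a, ha⟩ then - omega (seedB N k a) (Pi.single ⟨a, ha⟩ 1) y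
        else omega (seedB N k a) (Pi.single i 1) y +
          max (seedB N k a i ⟨a, ha⟩) 0 * omega (seedB N k a) (Pi.single ⟨a, ha⟩ 1) y := by
    intro i y
    unfold mutVec
    by_cases hi : i = ⟨a, ha⟩
    · rw [if_pos hi, if_pos hi]
      have := omega_smul_l (seedB N k a) (-1) (Pi.single ⟨a, ha⟩ 1) y
      rw [neg_one_smul, neg_one_mul] at this
      exact this
    · rw [if_neg hi, if_neg hi, omega_add_left, omega_smul_l]
  have key' : ∀ (i : Fin N) (y : Fin N → ℤ),
      omega (seedB N k a) y (mutVec (seedB N k a) ⟨a, ha⟩ i) =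
        if i = ⟨a, ha⟩ then - omega (seedB N k a) y (Pi.single ⟨a, ha⟩ 1)
        else omega (seedB N k a) y (Pi.single i 1) +
          max (seedB N k a i ⟨a, ha⟩) 0 * omega (seedB N k a) y (Pi.single ⟨a, ha⟩ 1) := by
    intro i y
    unfold mutVec
    by_cases hi : i = ⟨a, ha⟩
    · rw [if_pos hi, if_pos hi]
      have := omega_smul_r (seedB N k a) (-1) y (Pi.single ⟨a, ha⟩ 1)
      rw [neg_one_smul, neg_one_mul] at this
      exact this
    · rw [if_neg hi, if_neg hi, omega_add_right, omega_smul_r]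
  have hne : ∀ i : Fin N, i ≠ ⟨a, ha⟩ → (i : ℕ) ≠ a := fun i hi h => hi (Fin.ext h)
  -- columns
  have col_of_ne : ∀ (j : Fin N), j ≠ ⟨a, ha⟩ → ∀ p q : ℕ,
      wD k p q (cp (a + 1) j) (cq (a + 1) j) = wD k p q (cp a j) (cq a j) +
        max (seedB N k a j ⟨a, ha⟩) 0 * wD k p q (cp a a) (cq a a) := by
    intro j hj p q
    rw [wD_swap k p q (cp (a + 1) j), row_of_ne hk (hne j hj), wD_swap k p q (cp a j),
      wD_swap k p q (cp a a)]
    change -(wD k (cp a j) (cq a j) p q + max (seedB N k a j ⟨a, ha⟩) 0 *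
      wD k (cp a a) (cq a a) p q) = _
    ring
  have col_self : ∀ p q : ℕ,
      wD k p q (cp (a + 1) a) (cq (a + 1) a) = - wD k p q (cp a a) (cq a a) := by
    intro p q
    rw [wD_swap k p q (cp (a + 1) a), row_self, wD_swap k p q (cp a a)]
  ext i j
  unfold mutB
  rw [key, key', key']
  simp only [omega_single]
  change _ = wD k (cp (a + 1) i) (cq (a + 1) i) (cp (a + 1) j) (cq (a + 1) j)
  by_cases hi : i = ⟨a, ha⟩
  · rw [if_pos hi]
    have hia : (i : ℕ) = a := by rw [hi]
    by_cases hj : j = ⟨a, ha⟩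
    · rw [if_pos hj, hdiag]
      have hja : (j : ℕ) = a := by rw [hj]
      rw [hia, hja, row_self, col_self]
      change _ = - - seedB N k a ⟨a, ha⟩ ⟨a, ha⟩
      rw [hdiag]
    · rw [if_neg hj, hdiag, mul_zero, add_zero, hia, row_self, col_of_ne j hj]
      change _ = -(seedB N k a ⟨a, ha⟩ j + _ * seedB N k a ⟨a, ha⟩ ⟨a, ha⟩)
      rw [hdiag, mul_zero, add_zero]
  · rw [if_neg hi]
    by_cases hj : j = ⟨a, ha⟩
    · rw [if_pos hj, if_pos hj, hdiag, neg_zero, mul_zero, add_zero]
      have hja : (j : ℕ) = a := by rw [hj]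
      rw [hja, col_self, row_of_ne hk (hne i hi)]
      change _ = -(seedB N k a i ⟨a, ha⟩ + _ * seedB N k a ⟨a, ha⟩ ⟨a, ha⟩)
      rw [hdiag, mul_zero, add_zero]
    · rw [if_neg hj, if_neg hj, hdiag, mul_zero, add_zero, col_of_ne j hj,
        row_of_ne hk (hne i hi), row_of_ne hk (hne i hi)]
      change _ = seedB N k a i j + max (seedB N k a i ⟨a, ha⟩) 0 * seedB N k a ⟨a, ha⟩ j +
        max (seedB N k a j ⟨a, ha⟩) 0 * (seedB N k a i ⟨a, ha⟩ +
          max (seedB N k a i ⟨a, ha⟩) 0 * seedB N k a ⟨a, ha⟩ ⟨a, ha⟩)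
      rw [hdiag]
      ring

end

end Vale.Agent.P066.Theta.H252
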